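import Vale.Agent.H12.PrimeSum

namespace Vale.Agent.H12.PrimeSum

open Finset Pointwise

variable {G : Type*} [AddCommGroup G]

theorem mulSub_finiteIndex [AddGroup.FG G] {N : ℕ} (hN : 0 < N) :
    (mulSub (G := G) N).FiniteIndex := by
  have hfin : Finite (G ⧸ mulSub (G := G) N) := by
    apply AddCommGroup.finite_of_fg_isAddTorsion
    intro x
    induction x using QuotientAddGroup.induction_on with
    | H g =>
      rw [isOfFinAddOrder_iff_nsmul_eq_zero]
      refine ⟨N, hN, ?_⟩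
      rw [← QuotientAddGroup.mk_nsmul]
      exact (QuotientAddGroup.eq_zero_iff _).mpr (mem_mulSub.mpr ⟨g, rfl⟩)
  exact AddSubgroup.finiteIndex_of_finite_quotient

theorem prime_pair_periodic_fg [AddGroup.FG G] [DecidableEq G] (F₁ F₂ : Finset G)
    (h₁ : F₁.card.Prime) (h₂ : F₂.card.Prime) (hdir : (F₁ + F₂).card = F₁.card * F₂.card)
    (A : Set G) (hA : ∀ g, ∃! a, a ∈ A ∧ g - a ∈ F₁ + F₂) :
    ∃ (A' : Set G) (K : AddSubgroup G), K.FiniteIndex ∧
      (∀ g, ∃! a, a ∈ A' ∧ g - a ∈ F₁ + F₂) ∧ ∀ k ∈ K, ∀ a ∈ A', a + k ∈ A' := by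
  have hfin : Module.Finite ℤ G := Module.Finite.iff_addGroup_fg.mpr inferInstance
  have hnoeth : IsNoetherian ℤ G := isNoetherian_of_isNoetherianRing_of_finite ℤ G
  obtain ⟨A', N, hN, htile, hinv⟩ := prime_pair_periodic F₁ F₂ h₁ h₂ hdir A hA
  refine ⟨A', mulSub N, mulSub_finiteIndex hN, htile, ?_⟩
  intro k hk a ha
  obtain ⟨w, rfl⟩ := mem_mulSub.mp hk
  exact hinv a ha w

end Vale.Agent.H12.PrimeSum
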