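import Vale.Agent.H12.GraphBridge
import Vale.Agent.H12.PairFibre
import Vale.Agent.H40.KTV.GDefs
import Vale.Agent.H58.KTV.Spec

/-!
Final assembly for the switch chain on simple graphs: from the operator inequality
`c K <= K^2` for the sum `K` of the pair projections and the comparison `K <= L` with the
switch Laplacian to the Poincare inequality on every degree class.
-/

namespace Vale.Agent.H12.Switch

open Finset SimpleGraph
open scoped Classical
open Vale.Agent.H90 (dot avgRel)
open Vale.Agent.H40.KTV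

variable {V : Type} [Fintype V]

theorem sd_equiv : Equivalence (SD (V := V)) :=
  ⟨fun _ _ => rfl, fun h v => (h v).symm, fun h1 h2 v => (h1 v).trans (h2 v)⟩

theorem rel_equiv (S : Set (Sym2 V)) : Equivalence (Rel (V := V) S) :=
  ⟨fun _ => ⟨fun _ => rfl, fun _ _ => Iff.rfl⟩,
   fun h => ⟨fun v => (h.1 v).symm, fun e he => (h.2 e he).symm⟩,
   fun h1 h2 => ⟨fun v => (h1.1 v).trans (h2.1 v), fun e he => (h1.2 e he).trans (h2.2 e he)⟩⟩

theorem rp_equiv (u v : V) : Equivalence (RP (V := V) u v) := rel_equiv _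

theorem rp_sd {u v : V} {G H : SimpleGraph V} (h : RP u v G H) : SD G H := h.1

/-- every switch stays inside a pair fibre -/
theorem rp_of_switch {G G' : SimpleGraph V} (h : IsSwitch G G') :
    ∃ u v : V, u ≠ v ∧ RP u v G G' := by
  obtain ⟨u, v, huv, hag⟩ := switch_agree_off h
  refine ⟨u, v, huv, fun x => (IsSwitch.degree h x).symm, ?_⟩
  intro e he
  induction e using Sym2.ind with
  | _ x y =>
    have hx : x ≠ u ∧ x ≠ v ∧ y ≠ u ∧ y ≠ v := by
      refine ⟨?_, ?_, ?_, ?_⟩ <;> rintro rfl <;> exact he (by simp [EP])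
    exact hag x y hx.1 hx.2.1 hx.2.2.1 hx.2.2.2

/-- a function that is constant on all pair fibres is constant on each degree class -/
theorem sd_of_rp_inv {α : Type*} (F : SimpleGraph V → α)
    (hF : ∀ u v : V, u ≠ v → ∀ G H, RP u v G H → F G = F H) (G H : SimpleGraph V)
    (h : SD G H) : F G = F H := by
  apply const_of_switch_inv F _ G H h
  intro G G' hs
  obtain ⟨u, v, huv, hr⟩ := rp_of_switch hs
  exact hF u v huv G G' hr

/-- the sum of the pair projection complements over ordered pairs of distinct vertices -/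
noncomputable def KP (f : SimpleGraph V → ℝ) : SimpleGraph V → ℝ :=
  ∑ u : V, ∑ v : V, if u ≠ v then QP u v f else 0

theorem QP_add (u v : V) (f g : SimpleGraph V → ℝ) : QP u v (f + g) = QP u v f + QP u v g := by
  unfold QP
  rw [Vale.Agent.H90.avgRel_add]
  abel

theorem QP_smul (u v : V) (c : ℝ) (f : SimpleGraph V → ℝ) : QP u v (c • f) = c • QP u v f := by
  unfold QP
  rw [Vale.Agent.H90.avgRel_smul, smul_sub]

theorem QP_dot (u v : V) (f g : SimpleGraph V → ℝ) : dot f (QP u v g) = dot (QP u v f) g := by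
  unfold QP
  rw [Vale.Agent.H90.dot_sub_right, Vale.Agent.H90.dot_sub_left,
    Vale.Agent.H90.avgRel_dot (rp_equiv u v)]

theorem QP_dot_self (u v : V) (f : SimpleGraph V → ℝ) :
    dot f (QP u v f) = dot (QP u v f) (QP u v f) := by
  have h1 : dot (avgRel (RP u v) f) (avgRel (RP u v) f) = dot f (avgRel (RP u v) f) := by
    rw [← Vale.Agent.H90.avgRel_dot (rp_equiv u v), Vale.Agent.H90.avgRel_idem (rp_equiv u v)]
  unfold QP
  rw [Vale.Agent.H90.dot_sub_right, Vale.Agent.H90.dot_sub_left, Vale.Agent.H90.dot_sub_right,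
    Vale.Agent.H90.dot_sub_right, h1,
    Vale.Agent.H90.dot_comm (avgRel (RP u v) f) f]
  ring

theorem KP_add (f g : SimpleGraph V → ℝ) : KP (f + g) = KP f + KP g := by
  unfold KP
  rw [← Finset.sum_add_distrib]
  refine Finset.sum_congr rfl (fun u _ => ?_)
  rw [← Finset.sum_add_distrib]
  refine Finset.sum_congr rfl (fun v _ => ?_)
  by_cases h : u ≠ v
  · rw [if_pos h, if_pos h, if_pos h, QP_add]
  · rw [if_neg h, if_neg h, if_neg h, add_zero]

theorem KP_smul (c : ℝ) (f : SimpleGraph V → ℝ) : KP (c • f) = c • KP f := by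
  unfold KP
  rw [Finset.smul_sum]
  refine Finset.sum_congr rfl (fun u _ => ?_)
  rw [Finset.smul_sum]
  refine Finset.sum_congr rfl (fun v _ => ?_)
  by_cases h : u ≠ v
  · rw [if_pos h, if_pos h, QP_smul]
  · rw [if_neg h, if_neg h, smul_zero]

theorem dot_KP (f g : SimpleGraph V → ℝ) :
    dot f (KP g) = ∑ u : V, ∑ v : V, if u ≠ v then dot f (QP u v g) else 0 := by
  unfold KP
  rw [Vale.Agent.H90.dot_sum_right]
  refine Finset.sum_congr rfl (fun u _ => ?_)
  rw [Vale.Agent.H90.dot_sum_right]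
  refine Finset.sum_congr rfl (fun v _ => ?_)
  by_cases h : u ≠ v
  · rw [if_pos h, if_pos h]
  · rw [if_neg h, if_neg h, Vale.Agent.H90.dot_zero_right]

theorem KP_dot (f g : SimpleGraph V → ℝ) : dot f (KP g) = dot (KP f) g := by
  rw [dot_KP, Vale.Agent.H90.dot_comm (KP f) g, dot_KP]
  refine Finset.sum_congr rfl (fun u _ => ?_)
  refine Finset.sum_congr rfl (fun v _ => ?_)
  by_cases h : u ≠ v
  · rw [if_pos h, if_pos h, QP_dot, Vale.Agent.H90.dot_comm]
  · rw [if_neg h, if_neg h]

theorem dot_KP_self_nonneg (f : SimpleGraph V → ℝ) : 0 ≤ dot f (KP f) := by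
  rw [dot_KP]
  refine Finset.sum_nonneg (fun u _ => Finset.sum_nonneg (fun v _ => ?_))
  by_cases h : u ≠ v
  · rw [if_pos h, QP_dot_self]
    exact Vale.Agent.H90.dot_self_nonneg _
  · rw [if_neg h]

/-- kernel of `KP`: a function annihilated by `KP` is constant on every degree class -/
theorem sd_inv_of_KP_eq_zero (g : SimpleGraph V → ℝ) (hg : KP g = 0)
    (G H : SimpleGraph V) (h : SD G H) : g G = g H := by
  have h0 : dot g (KP g) = 0 := by rw [hg, Vale.Agent.H90.dot_zero_right]
  rw [dot_KP] at h0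
  have hterm : ∀ u v : V, u ≠ v → dot (QP u v g) (QP u v g) = 0 := by
    intro u v huv
    have hnn : ∀ u ∈ (univ : Finset V), 0 ≤ ∑ v : V, if u ≠ v then dot g (QP u v g) else 0 := by
      intro u _
      refine Finset.sum_nonneg (fun v _ => ?_)
      by_cases h : u ≠ v
      · rw [if_pos h, QP_dot_self]
        exact Vale.Agent.H90.dot_self_nonneg _
      · rw [if_neg h]
    have h1 := (Finset.sum_eq_zero_iff_of_nonneg hnn).1 h0 u (Finset.mem_univ u)
    have hnn2 : ∀ v ∈ (univ : Finset V), 0 ≤ (if u ≠ v then dot g (QP u v g) else 0) := by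
      intro v _
      by_cases h : u ≠ v
      · rw [if_pos h, QP_dot_self]
        exact Vale.Agent.H90.dot_self_nonneg _
      · rw [if_neg h]
    have h2 := (Finset.sum_eq_zero_iff_of_nonneg hnn2).1 h1 v (Finset.mem_univ v)
    rw [if_pos huv, QP_dot_self] at h2
    exact h2
  apply sd_of_rp_inv g _ G H h
  intro u v huv G H hr
  have hz := Vale.Agent.H90.dot_self_eq_zero (hterm u v huv)
  have e : ∀ X : SimpleGraph V, g X = avgRel (RP u v) g X := by
    intro X
    have := congrFun hz X
    unfold QP at this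
    simp only [Pi.sub_apply, Pi.zero_apply] at this
    linarith
  rw [e G, e H]
  exact Vale.Agent.H90.avgRel_of_rel (rp_equiv u v) g hr

/-- `KP` annihilates functions that are constant on degree classes -/
theorem KP_of_sd_inv (g : SimpleGraph V → ℝ) (hg : ∀ G H, SD G H → g G = g H) : KP g = 0 := by
  unfold KP
  apply Finset.sum_eq_zero
  intro u _
  apply Finset.sum_eq_zero
  intro v _
  by_cases h : u ≠ v
  · rw [if_pos h]
    unfold QP
    rw [Vale.Agent.H90.avgRel_eq_self (rp_equiv u v) g (fun x y hxy => hg x y (rp_sd hxy))]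
    exact sub_self g
  · rw [if_neg h]

/-- **Final assembly.** If `c K <= K^2` for the sum `K` of the pair projection complements
(ordered pairs) and `K` is dominated by the ordered-pair Dirichlet form of the switch graph,
then that Dirichlet form dominates `c` times the squared distance to the class average. -/
theorem main_of_parts (c : ℝ)
    (hK2 : ∀ f : SimpleGraph V → ℝ, c * dot f (KP f) ≤ dot (KP f) (KP f))
    (hLK : ∀ f : SimpleGraph V → ℝ,
      dot f (KP f) ≤ ∑ G, ∑ G', if IsSwitch G G' then (f G - f G') ^ 2 else 0)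
    (F : SimpleGraph V → ℝ) :
    c * ∑ G, (F G - avgRel SD F G) ^ 2
      ≤ ∑ G, ∑ G', if IsSwitch G G' then (F G - F G') ^ 2 else 0 := by
  set E := avgRel (SD (V := V)) F with hE
  have hEinv : ∀ G H, SD G H → E G = E H :=
    fun G H h => Vale.Agent.H90.avgRel_of_rel sd_equiv F h
  have hKE : KP E = 0 := KP_of_sd_inv E hEinv
  have hKf : KP (F - E) = KP F := by
    have h1 : KP (F - E + E) = KP (F - E) + KP E := KP_add _ _
    rw [sub_add_cancel, hKE, add_zero] at h1
    exact h1.symm
  -- eigenvalue condition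
  have heig : ∀ (μ : ℝ) (f : SimpleGraph V → ℝ), f ≠ 0 → KP f = μ • f → μ = 0 ∨ c ≤ μ := by
    intro μ f hf hμ
    have hpos : 0 < dot f f := by
      rcases (Vale.Agent.H90.dot_self_nonneg f).lt_or_eq with h | h
      · exact h
      · exact absurd (Vale.Agent.H90.dot_self_eq_zero h.symm) hf
    have e1 : dot f (μ • f) = μ * dot f f := Vale.Agent.H90.dot_smul_right μ f f
    have e2 : dot (μ • f) (μ • f) = μ * (μ * dot f f) := by
      rw [Vale.Agent.H90.dot_smul_left, Vale.Agent.H90.dot_smul_right]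
    have h1 := hK2 f
    have h2 := dot_KP_self_nonneg f
    rw [hμ, e1] at h2
    rw [hμ, e1, e2] at h1
    by_cases h0 : μ = 0
    · exact Or.inl h0
    · right
      have hμpos : 0 < μ := by
        rcases lt_or_gt_of_ne h0 with h | h
        · nlinarith
        · exact h
      have h3 : c * μ * dot f f ≤ μ * μ * dot f f := by nlinarith
      have h4 : c * μ ≤ μ * μ := le_of_mul_le_mul_right h3 hpos
      exact le_of_mul_le_mul_right h4 hμpos
  -- orthogonality to the kernel
  have hker : ∀ g : SimpleGraph V → ℝ, KP g = 0 → dot (F - E) g = 0 := by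
    intro g hg
    have hginv := sd_inv_of_KP_eq_zero g hg
    have h1 : avgRel (SD (V := V)) g = g :=
      Vale.Agent.H90.avgRel_eq_self sd_equiv g hginv
    rw [Vale.Agent.H90.dot_sub_left, hE, ← Vale.Agent.H90.avgRel_dot sd_equiv, h1]
    ring
  have hgap := Vale.Agent.H58.spec_gap KP KP_add KP_smul KP_dot c heig (F - E) hker
  rw [hKf] at hgap
  have h5 : dot (F - E) (KP F) = dot F (KP F) := by
    rw [Vale.Agent.H90.dot_sub_left, KP_dot E F, hKE, Vale.Agent.H90.dot_zero_left, sub_zero]
  rw [h5] at hgap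
  have h6 : dot (F - E) (F - E) = ∑ G, (F G - E G) ^ 2 := by
    unfold dot
    refine Finset.sum_congr rfl (fun G _ => ?_)
    simp only [Pi.sub_apply]
    ring
  rw [h6] at hgap
  exact le_trans hgap (hLK F)

/-- Poincare inequality on every degree class from the two operator inequalities. -/
theorem poincare_of_parts (c : ℝ)
    (hK2 : ∀ f : SimpleGraph V → ℝ, c * dot f (KP f) ≤ dot (KP f) (KP f))
    (hLK : ∀ f : SimpleGraph V → ℝ,
      dot f (KP f) ≤ ∑ G, ∑ G', if IsSwitch G G' then (f G - f G') ^ 2 else 0)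
    (d : V → ℕ) (f : Omega d → ℝ) (hf : ∑ G, f G = 0) :
    c / 2 * ∑ G, f G ^ 2 ≤ ∑ G, f G * lapΩ d f G :=
  gap_of_main SD (fun _ _ => Iff.rfl) c (main_of_parts c hK2 hLK) d f hf

/-- **Mixing from the two operator inequalities** (constant `4 / m`, at most `m * n^6`
steps). The hypotheses are stated for every finite vertex type. -/
theorem mixing_of_parts (m : ℕ) (hm : 1 ≤ m)
    (hK2 : ∀ (V : Type) [Fintype V] (f : SimpleGraph V → ℝ),
      (4 / (m : ℝ)) * dot f (KP f) ≤ dot (KP f) (KP f))
    (hLK : ∀ (V : Type) [Fintype V] (f : SimpleGraph V → ℝ),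
      dot f (KP f) ≤ ∑ G, ∑ G', if IsSwitch G G' then (f G - f G') ^ 2 else 0)
    (n : ℕ) (hn : 4 ≤ n) (d : Fin n → ℕ) :
    ∃ t ≤ m * n ^ 6, ∀ G : Omega d,
      (1 / 2 : ℝ) * ∑ G', |(kernel d ^ t) G G' - 1 / (Fintype.card (Omega d) : ℝ)| ≤ 1 / 4 := by
  apply mixing_of_poincare_gen n hn d m hm
  intro f hf
  have := poincare_of_parts (V := Fin n) (4 / (m : ℝ)) (hK2 (Fin n)) (hLK (Fin n)) d f hf
  have e : (4 / (m : ℝ)) / 2 = 2 / (m : ℝ) := by ring
  rw [e] at this
  exact this

end Vale.Agent.H12.Switch
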