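import Vale.Agent.H12.SwitchChain
import Vale.Agent.H40.KTV.GDefs

/-!
Counting lemma for the block involutions: for a fixed graph `G`, the sum over all
quadruples of distinct vertices of the squared increments of `f` along the block
involution is at most eight times the sum over the switch neighbours of `G`.
-/

namespace Vale.Agent.H12.Switch

open Finset SimpleGraph
open scoped Classical
open Vale.Agent.H40.KTV

variable {V : Type} [Fintype V]

/-- the three cases in the definition of the block involution -/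
theorem T_cases (u v w z : V) (G : SimpleGraph V) :
    (T u v w z G = G) ∨
    ((G.Adj u w ∧ G.Adj v z ∧ ¬ G.Adj u z ∧ ¬ G.Adj v w) ∧ T u v w z G = swap G u w z v) ∨
    ((G.Adj u z ∧ G.Adj v w ∧ ¬ G.Adj u w ∧ ¬ G.Adj v z) ∧ T u v w z G = swap G u z w v) := by
  unfold T
  by_cases h1 : G.Adj u w ∧ G.Adj v z ∧ ¬ G.Adj u z ∧ ¬ G.Adj v w
  · right; left; exact ⟨h1, if_pos h1⟩
  · by_cases h2 : G.Adj u z ∧ G.Adj v w ∧ ¬ G.Adj u w ∧ ¬ G.Adj v z
    · right; right
      refine ⟨h2, ?_⟩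
      rw [if_neg h1, if_pos h2]
    · left
      rw [if_neg h1, if_neg h2]

/-- the adjacency of the two graphs differs at the pair `x, y` -/
def Df (G G' : SimpleGraph V) (x y : V) : Prop := ¬ (G.Adj x y ↔ G'.Adj x y)

/-- a block involution that moves `G` is a switch, and it changes exactly the four block
pairs -/
theorem T_facts (u v w z : V) (h : Dist4 u v w z) (G : SimpleGraph V)
    (hne : T u v w z G ≠ G) :
    IsSwitch G (T u v w z G) ∧ Df G (T u v w z G) u w ∧ Df G (T u v w z G) u z ∧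
      Df G (T u v w z G) v w ∧ Df G (T u v w z G) v z ∧
      ∀ x y, Df G (T u v w z G) x y →
        (s(x, y) = s(u, w) ∨ s(x, y) = s(v, z) ∨ s(x, y) = s(u, z) ∨ s(x, y) = s(v, w)) := by
  obtain ⟨huv, huw, huz, hvw, hvz, hwz⟩ := h
  rcases T_cases u v w z G with h0 | ⟨⟨h1, h2, h3, h4⟩, hT⟩ | ⟨⟨h1, h2, h3, h4⟩, hT⟩
  · exact absurd h0 hne
  · rw [hT]
    have hrev := swap_rev_applicable G u w z v h1 h2.symm h3 (fun h => h4 h.symm) huz
      (Ne.symm hvw)
    refine ⟨⟨u, w, z, v, huz, Ne.symm hvw, h1, h2.symm, h3, fun h => h4 h.symm, rfl⟩,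
      ?_, ?_, ?_, ?_, ?_⟩
    · intro hiff; exact hrev.2.2.1 (hiff.1 h1)
    · intro hiff; exact h3 (hiff.2 hrev.1)
    · intro hiff; exact h4 (hiff.2 hrev.2.1.symm)
    · intro hiff; exact hrev.2.2.2 (hiff.1 h2).symm
    · intro x y hd
      by_contra hcon
      apply hd
      have := swap_adj_other G u w z v x y
        ⟨fun h => hcon (Or.inl h),
         fun h => hcon (Or.inr (Or.inl (h.trans Sym2.eq_swap))),
         fun h => hcon (Or.inr (Or.inr (Or.inl h))),
         fun h => hcon (Or.inr (Or.inr (Or.inr (h.trans Sym2.eq_swap))))⟩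
      exact this.symm
  · rw [hT]
    have hrev := swap_rev_applicable G u z w v h1 h2.symm h3 (fun h => h4 h.symm) huw
      (Ne.symm hvz)
    refine ⟨⟨u, z, w, v, huw, Ne.symm hvz, h1, h2.symm, h3, fun h => h4 h.symm, rfl⟩,
      ?_, ?_, ?_, ?_, ?_⟩
    · intro hiff; exact h3 (hiff.2 hrev.1)
    · intro hiff; exact hrev.2.2.1 (hiff.1 h1)
    · intro hiff; exact hrev.2.2.2 (hiff.1 h2).symm
    · intro hiff; exact h4 (hiff.2 hrev.2.1.symm)
    · intro x y hd
      by_contra hcon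
      apply hd
      have := swap_adj_other G u z w v x y
        ⟨fun h => hcon (Or.inr (Or.inr (Or.inl h))),
         fun h => hcon (Or.inr (Or.inr (Or.inr (h.trans Sym2.eq_swap)))),
         fun h => hcon (Or.inl h),
         fun h => hcon (Or.inr (Or.inl (h.trans Sym2.eq_swap)))⟩
      exact this.symm

theorem T_isSwitch (u v w z : V) (h : Dist4 u v w z) (G : SimpleGraph V)
    (hne : T u v w z G ≠ G) : IsSwitch G (T u v w z G) :=
  (T_facts u v w z h G hne).1

/-- at most eight quadruples of distinct vertices have a block involution taking `G` to a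
given other graph -/
theorem card_T_le (G G' : SimpleGraph V) (hne : G' ≠ G) :
    (univ.filter (fun q : V × V × V × V =>
      Dist4 q.1 q.2.1 q.2.2.1 q.2.2.2 ∧ T q.1 q.2.1 q.2.2.1 q.2.2.2 G = G')).card ≤ 8 := by
  set TT := univ.filter (fun q : V × V × V × V =>
      Dist4 q.1 q.2.1 q.2.2.1 q.2.2.2 ∧ T q.1 q.2.1 q.2.2.1 q.2.2.2 G = G') with hTT
  have hmem : ∀ q : V × V × V × V, q ∈ TT →
      Dist4 q.1 q.2.1 q.2.2.1 q.2.2.2 ∧ T q.1 q.2.1 q.2.2.1 q.2.2.2 G = G' := by
    intro q hq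
    rw [hTT, mem_filter] at hq
    exact hq.2
  have hfacts : ∀ q : V × V × V × V, q ∈ TT →
      Dist4 q.1 q.2.1 q.2.2.1 q.2.2.2 ∧ Df G G' q.1 q.2.2.1 ∧ Df G G' q.1 q.2.2.2 ∧
        Df G G' q.2.1 q.2.2.1 ∧ Df G G' q.2.1 q.2.2.2 ∧
        ∀ x y, Df G G' x y → (s(x, y) = s(q.1, q.2.2.1) ∨ s(x, y) = s(q.2.1, q.2.2.2) ∨
          s(x, y) = s(q.1, q.2.2.2) ∨ s(x, y) = s(q.2.1, q.2.2.1)) := by
    intro q hq
    obtain ⟨hd, hT⟩ := hmem q hq
    have hne' : T q.1 q.2.1 q.2.2.1 q.2.2.2 G ≠ G := by rw [hT]; exact hne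
    have hf := T_facts q.1 q.2.1 q.2.2.1 q.2.2.2 hd G hne'
    rw [hT] at hf
    exact ⟨hd, hf.2⟩
  by_cases hemp : TT = ∅
  · rw [hemp]; simp
  obtain ⟨q0, hq0⟩ := Finset.nonempty_iff_ne_empty.2 hemp
  have hf0 := hfacts q0 hq0
  set P : Finset (V × V) := univ.filter (fun p : V × V => Df G G' p.1 p.2) with hP
  have hP8 : P.card ≤ 8 := by
    have hsub : P ⊆ ([(q0.1, q0.2.2.1), (q0.2.2.1, q0.1), (q0.2.1, q0.2.2.2), (q0.2.2.2, q0.2.1),
        (q0.1, q0.2.2.2), (q0.2.2.2, q0.1), (q0.2.1, q0.2.2.1), (q0.2.2.1, q0.2.1)] :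
          List (V × V)).toFinset := by
      intro p hp
      rw [hP, mem_filter] at hp
      have h4 := hf0.2.2.2.2.2 p.1 p.2 hp.2
      rw [List.mem_toFinset]
      obtain ⟨x, y⟩ := p
      simp only [List.mem_cons, Prod.mk.injEq, List.mem_nil_iff, or_false]
      simp only at h4
      rcases h4 with h | h | h | h <;> rcases Sym2.eq_iff.1 h with ⟨h1, h2⟩ | ⟨h1, h2⟩ <;>
        simp [h1, h2]
    exact (Finset.card_le_card hsub).trans (List.toFinset_card_le _)
  have hinj : TT.card ≤ P.card := by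
    apply Finset.card_le_card_of_injOn (fun q : V × V × V × V => (q.1, q.2.2.1))
    · intro q hq
      have hf := hfacts q hq
      simp only [hP, coe_filter, mem_univ, true_and, Set.mem_ofPred_eq]
      exact hf.2.1
    · intro q hq q' hq' heq
      have hf := hfacts q hq
      have hf' := hfacts q' hq'
      obtain ⟨u, v, w, z⟩ := q
      obtain ⟨u', v', w', z'⟩ := q'
      simp only [Prod.mk.injEq] at heq
      obtain ⟨rfl, rfl⟩ := heq
      simp only at hf hf'
      obtain ⟨⟨huv, huw, huz, hvw, hvz, hwz⟩, -, -, -, -, hE⟩ := hf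
      obtain ⟨⟨huv', -, huz', hvw', hvz', hwz'⟩, -, hD2, hD3, -, -⟩ := hf'
      have hz : z' = z := by
        rcases hE u z' hD2 with h | h | h | h
        · rcases Sym2.eq_iff.1 h with ⟨_, h2⟩ | ⟨h1, _⟩
          · exact absurd h2.symm hwz'
          · exact absurd h1 huw
        · rcases Sym2.eq_iff.1 h with ⟨h1, _⟩ | ⟨h1, _⟩
          · exact absurd h1 huv
          · exact absurd h1 huz
        · rcases Sym2.eq_iff.1 h with ⟨_, h2⟩ | ⟨h1, _⟩
          · exact h2
          · exact absurd h1 huz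
        · rcases Sym2.eq_iff.1 h with ⟨h1, _⟩ | ⟨h1, _⟩
          · exact absurd h1 huv
          · exact absurd h1 huw
      have hv : v' = v := by
        rcases hE v' w hD3 with h | h | h | h
        · rcases Sym2.eq_iff.1 h with ⟨h1, _⟩ | ⟨_, h2⟩
          · exact absurd h1.symm huv'
          · exact absurd h2.symm huw
        · rcases Sym2.eq_iff.1 h with ⟨_, h2⟩ | ⟨_, h2⟩
          · exact absurd h2 hwz
          · exact absurd h2.symm hvw
        · rcases Sym2.eq_iff.1 h with ⟨_, h2⟩ | ⟨_, h2⟩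
          · exact absurd h2 hwz
          · exact absurd h2.symm huw
        · rcases Sym2.eq_iff.1 h with ⟨h1, _⟩ | ⟨_, h2⟩
          · exact h1
          · exact absurd h2.symm hvw
      rw [hz, hv]
  exact hinj.trans hP8

/-- **Counting lemma.** -/
theorem sum_T_le (f : SimpleGraph V → ℝ) (G : SimpleGraph V) :
    ∑ u, ∑ v, ∑ w, ∑ z, (if Dist4 u v w z then (f G - f (T u v w z G)) ^ 2 else 0)
      ≤ 8 * ∑ G' : SimpleGraph V, (if IsSwitch G G' then (f G - f G') ^ 2 else 0) := by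
  have e1 : ∑ u, ∑ v, ∑ w, ∑ z, (if Dist4 u v w z then (f G - f (T u v w z G)) ^ 2 else 0)
      = ∑ q : V × V × V × V, (if Dist4 q.1 q.2.1 q.2.2.1 q.2.2.2 then
          (f G - f (T q.1 q.2.1 q.2.2.1 q.2.2.2 G)) ^ 2 else 0) := by
    simp only [Fintype.sum_prod_type]
  have e2 : ∀ q : V × V × V × V, (if Dist4 q.1 q.2.1 q.2.2.1 q.2.2.2 then
          (f G - f (T q.1 q.2.1 q.2.2.1 q.2.2.2 G)) ^ 2 else 0)
      = ∑ G' : SimpleGraph V, (if Dist4 q.1 q.2.1 q.2.2.1 q.2.2.2 ∧
          T q.1 q.2.1 q.2.2.1 q.2.2.2 G = G' then (f G - f G') ^ 2 else 0) := by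
    intro q
    by_cases hd : Dist4 q.1 q.2.1 q.2.2.1 q.2.2.2
    · simp only [hd, true_and, if_true]
      rw [Finset.sum_ite_eq]
      simp
    · simp only [hd, false_and, if_false]
      simp
  rw [e1, Finset.sum_congr rfl (fun q _ => e2 q), Finset.sum_comm, Finset.mul_sum]
  apply Finset.sum_le_sum
  intro G' _
  rw [← Finset.sum_filter, Finset.sum_const, nsmul_eq_mul]
  by_cases hG : G' = G
  · subst hG
    simp
  · by_cases hemp : (univ.filter (fun q : V × V × V × V =>
        Dist4 q.1 q.2.1 q.2.2.1 q.2.2.2 ∧ T q.1 q.2.1 q.2.2.1 q.2.2.2 G = G')) = ∅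
    · rw [hemp]
      simp only [card_empty, Nat.cast_zero, zero_mul]
      by_cases hs : IsSwitch G G'
      · rw [if_pos hs]; positivity
      · rw [if_neg hs]; norm_num
    · obtain ⟨q0, hq0⟩ := Finset.nonempty_iff_ne_empty.2 hemp
      rw [mem_filter] at hq0
      have hsw : IsSwitch G G' := by
        have := T_isSwitch q0.1 q0.2.1 q0.2.2.1 q0.2.2.2 hq0.2.1 G (by rw [hq0.2.2]; exact hG)
        rw [hq0.2.2] at this
        exact this
      rw [if_pos hsw]
      have hc := card_T_le G G' hG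
      have hc' : ((univ.filter (fun q : V × V × V × V =>
        Dist4 q.1 q.2.1 q.2.2.1 q.2.2.2 ∧ T q.1 q.2.1 q.2.2.1 q.2.2.2 G = G')).card : ℝ) ≤ 8 := by
        exact_mod_cast hc
      exact mul_le_mul_of_nonneg_right hc' (sq_nonneg _)

end Vale.Agent.H12.Switch
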