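import Mathlib

namespace Vale.Agent.H12

open Finset

/-- Cut and paste. Let `φ : G → ℤ` be a homomorphism with `φ t = 1`, let `F` be a finite tile
and `A` a tiling of `G` by `F` (every `g` is `a + f` for a unique `a ∈ A`, `f ∈ F`) which is
invariant under a subgroup `K` of `ker φ` such that `ker φ = K + T` for a finite set `T`.
Then there is a tiling `A'` by `F` invariant under `K` and under `p • t` for some `p > 0`. -/
theorem cut_and_paste {G : Type*} [AddCommGroup G] (φ : G →+ ℤ) (t : G) (ht : φ t = 1)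
    (F : Finset G) (A : Set G) (hA : ∀ g : G, ∃! a : G, a ∈ A ∧ g - a ∈ F)
    (K : AddSubgroup G) (hK : ∀ k ∈ K, φ k = 0) (T : Finset G)
    (hT : ∀ x, φ x = 0 → ∃ τ ∈ T, x - τ ∈ K)
    (hAK : ∀ k ∈ K, ∀ a, a ∈ A ↔ a + k ∈ A) :
    ∃ (A' : Set G) (p : ℤ), 0 < p ∧ (∀ g, ∃! a, a ∈ A' ∧ g - a ∈ F) ∧
      (∀ a, a ∈ A' ↔ a + p • t ∈ A') ∧ (∀ k ∈ K, ∀ a, a ∈ A' ↔ a + k ∈ A') := by
  classical
  -- a bound on the levels of the tile
  obtain ⟨D, hD⟩ : ∃ D : ℕ, ∀ f ∈ F, |φ f| ≤ (D : ℤ) := by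
    refine ⟨F.sup (fun f => (φ f).natAbs), fun f hf => ?_⟩
    have h := Finset.le_sup (f := fun f => (φ f).natAbs) hf
    have h2 : ((φ f).natAbs : ℤ) ≤ ((F.sup (fun f => (φ f).natAbs) : ℕ) : ℤ) := by
      exact_mod_cast h
    rwa [Int.natCast_natAbs] at h2
  -- representatives of the window
  let R : Finset G := ((Finset.range (2 * D + 1)) ×ˢ T).image
    (fun q => ((q.1 : ℕ) : ℤ) • t + q.2)
  let code : ℕ → R.powerset := fun i =>
    ⟨R.filter (fun x => x + (((i : ℤ) * (2 * (D : ℤ) + 1))) • t ∈ A),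
      Finset.mem_powerset.2 (Finset.filter_subset _ _)⟩
  obtain ⟨i, j, hij, hcode⟩ : ∃ i j : ℕ, i < j ∧ code i = code j := by
    obtain ⟨i, j, hne, h⟩ := Finite.exists_ne_map_eq_of_infinite code
    rcases Nat.lt_or_gt_of_ne hne with h1 | h1
    · exact ⟨i, j, h1, h⟩
    · exact ⟨j, i, h1, h.symm⟩
  have hcode' : ∀ x ∈ R, (x + (((i : ℤ) * (2 * (D : ℤ) + 1))) • t ∈ A ↔
      x + (((j : ℤ) * (2 * (D : ℤ) + 1))) • t ∈ A) := by
    intro x hx
    have h := congrArg (fun s : R.powerset => x ∈ (s : Finset G)) hcode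
    simp only [code, Finset.mem_filter, hx, true_and] at h
    exact Iff.of_eq h
  -- notation
  obtain ⟨n, hn⟩ : ∃ n : ℤ, n = (i : ℤ) * (2 * (D : ℤ) + 1) := ⟨_, rfl⟩
  obtain ⟨p, hp⟩ : ∃ p : ℤ, p = ((j : ℤ) - (i : ℤ)) * (2 * (D : ℤ) + 1) := ⟨_, rfl⟩
  have hji : (1 : ℤ) ≤ (j : ℤ) - (i : ℤ) := by
    have : (i : ℤ) < (j : ℤ) := by exact_mod_cast hij
    linarith
  have hD0 : (0 : ℤ) ≤ (D : ℤ) := Int.natCast_nonneg D
  have hLp : 2 * (D : ℤ) + 1 ≤ p := by
    rw [hp]; nlinarith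
  have hppos : 0 < p := by linarith
  have hnp : n + p = (j : ℤ) * (2 * (D : ℤ) + 1) := by rw [hn, hp]; ring
  rw [← hn, ← hnp] at hcode'
  -- window lemma
  have hW : ∀ x : G, n ≤ φ x → φ x < n + (2 * (D : ℤ) + 1) → (x ∈ A ↔ x + p • t ∈ A) := by
    intro x hx1 hx2
    obtain ⟨m, hm⟩ : ∃ m : ℕ, (m : ℤ) = φ x - n := ⟨(φ x - n).toNat, Int.toNat_of_nonneg (by linarith)⟩
    have hmL : m < 2 * D + 1 := by
      have : (m : ℤ) < 2 * (D : ℤ) + 1 := by rw [hm]; linarith
      exact_mod_cast this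
    have hz : φ (x - n • t - (m : ℤ) • t) = 0 := by
      rw [map_sub, map_sub, map_zsmul, map_zsmul, ht, hm]
      simp
    obtain ⟨τ, hτ, hκ⟩ := hT _ hz
    have hr : (m : ℤ) • t + τ ∈ R := by
      refine Finset.mem_image.2 ⟨(m, τ), ?_, rfl⟩
      exact Finset.mem_product.2 ⟨Finset.mem_range.2 hmL, hτ⟩
    have h1 := hcode' _ hr
    have e1 : x = ((m : ℤ) • t + τ + n • t) + (x - n • t - (m : ℤ) • t - τ) := by abel
    have e2 : x + p • t = ((m : ℤ) • t + τ + (n + p) • t) + (x - n • t - (m : ℤ) • t - τ) := by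
      rw [add_smul]; abel
    have h2 := hAK _ hκ ((m : ℤ) • t + τ + n • t)
    have h3 := hAK _ hκ ((m : ℤ) • t + τ + (n + p) • t)
    rw [← e1] at h2
    rw [← e2] at h3
    rw [← h2, ← h3]
    exact h1
  -- the new tiling
  refine ⟨{x | x - (((φ x - n) / p) * p) • t ∈ A}, p, hppos, ?_, ?_, ?_⟩
  · -- tiling property
    have hE : ∀ (k0 : ℤ) (x : G), n ≤ φ x - k0 * p → φ x - k0 * p < n + p + (2 * (D : ℤ) + 1) →
        (x - (((φ x - n) / p) * p) • t ∈ A ↔ x - (k0 * p) • t ∈ A) := by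
      intro k0 x h1 h2
      rcases lt_or_ge (φ x - k0 * p) (n + p) with h3 | h3
      · have hk : (φ x - n) / p = k0 := by
          have := (Int.ediv_emod_unique hppos (a := φ x - n) (q := k0)
            (r := φ x - n - k0 * p)).2 ⟨by ring, by linarith, by linarith⟩
          exact this.1
        rw [hk]
      · have hk : (φ x - n) / p = k0 + 1 := by
          have := (Int.ediv_emod_unique hppos (a := φ x - n) (q := k0 + 1)
            (r := φ x - n - (k0 + 1) * p)).2 ⟨by ring, by linarith, by linarith⟩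
          exact this.1
        rw [hk]
        have hφ : φ (x - ((k0 + 1) * p) • t) = φ x - (k0 + 1) * p := by
          rw [map_sub, map_zsmul, ht]; simp
        have hw := hW (x - ((k0 + 1) * p) • t) (by rw [hφ]; linarith) (by rw [hφ]; linarith)
        rw [hw]
        have : x - ((k0 + 1) * p) • t + p • t = x - (k0 * p) • t := by
          rw [add_mul, one_mul, add_smul]; abel
        rw [this]
    intro g
    obtain ⟨k0, hk0⟩ : ∃ k0 : ℤ, k0 = (φ g - D - n) / p := ⟨_, rfl⟩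
    have hk1 : n ≤ φ g - D - k0 * p := by
      have := Int.emod_nonneg (φ g - D - n) hppos.ne'
      have h2 := Int.emod_add_mul_ediv (φ g - D - n) p
      rw [← hk0] at h2
      nlinarith
    have hk2 : φ g - D - k0 * p < n + p := by
      have := Int.emod_lt_of_pos (φ g - D - n) hppos
      have h2 := Int.emod_add_mul_ediv (φ g - D - n) p
      rw [← hk0] at h2
      nlinarith
    have hlev : ∀ a : G, g - a ∈ F → (a - (((φ a - n) / p) * p) • t ∈ A ↔ a - (k0 * p) • t ∈ A) := by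
      intro a ha
      have hf := hD _ ha
      rw [map_sub, abs_le] at hf
      exact hE k0 a (by linarith [hf.1, hf.2]) (by linarith [hf.1, hf.2])
    obtain ⟨a', ⟨ha'A, ha'F⟩, huniq⟩ := hA (g - (k0 * p) • t)
    refine ⟨a' + (k0 * p) • t, ⟨?_, ?_⟩, ?_⟩
    · have hgF : g - (a' + (k0 * p) • t) ∈ F := by
        have : g - (a' + (k0 * p) • t) = g - (k0 * p) • t - a' := by abel
        rw [this]; exact ha'F
      show a' + (k0 * p) • t - (((φ (a' + (k0 * p) • t) - n) / p) * p) • t ∈ A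
      rw [hlev _ hgF]
      have : a' + (k0 * p) • t - (k0 * p) • t = a' := by abel
      rw [this]; exact ha'A
    · have : g - (a' + (k0 * p) • t) = g - (k0 * p) • t - a' := by abel
      rw [this]; exact ha'F
    · rintro a1 ⟨ha1A, ha1F⟩
      have h1 : a1 - (k0 * p) • t ∈ A := (hlev a1 ha1F).1 ha1A
      have h2 : g - (k0 * p) • t - (a1 - (k0 * p) • t) ∈ F := by
        have : g - (k0 * p) • t - (a1 - (k0 * p) • t) = g - a1 := by abel
        rw [this]; exact ha1F
      have := huniq _ ⟨h1, h2⟩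
      rw [← this]; abel
  · -- invariance under p • t
    intro a
    show a - (((φ a - n) / p) * p) • t ∈ A ↔
      a + p • t - (((φ (a + p • t) - n) / p) * p) • t ∈ A
    have hφ : φ (a + p • t) = φ a + p := by rw [map_add, map_zsmul, ht]; simp
    have hk : (φ a + p - n) / p = (φ a - n) / p + 1 := by
      have : φ a + p - n = (φ a - n) + p := by ring
      rw [this, Int.add_ediv_of_dvd_right (dvd_refl p), Int.ediv_self hppos.ne']
    rw [hφ, hk]
    have : a + p • t - (((φ a - n) / p + 1) * p) • t = a - (((φ a - n) / p) * p) • t := by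
      rw [add_mul, one_mul, add_smul]; abel
    rw [this]
  · -- invariance under K
    intro k hk a
    show a - (((φ a - n) / p) * p) • t ∈ A ↔
      a + k - (((φ (a + k) - n) / p) * p) • t ∈ A
    have hφ : φ (a + k) = φ a := by rw [map_add, hK k hk, add_zero]
    rw [hφ]
    have : a + k - (((φ a - n) / p) * p) • t = a - (((φ a - n) / p) * p) • t + k := by abel
    rw [this]
    exact hAK k hk _

/-- A set invariant under `p` is invariant under all multiples of `p`. -/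
theorem mem_add_mul_iff (A : Set ℤ) (p : ℤ) (h : ∀ a, a ∈ A ↔ a + p ∈ A) (m : ℤ) (a : ℤ) :
    a ∈ A ↔ a + m * p ∈ A := by
  induction m using Int.induction_on generalizing a with
  | zero => simp
  | succ k ih =>
    rw [ih a, h (a + (k : ℤ) * p)]
    have : a + (k : ℤ) * p + p = a + ((k : ℤ) + 1) * p := by ring
    rw [this]
  | pred k ih =>
    rw [ih a, h (a + (-(k : ℤ) - 1) * p)]
    have : a + (-(k : ℤ) - 1) * p + p = a + -(k : ℤ) * p := by ring
    rw [this]

/-- Every finite tile of `ℤ` admits a periodic tiling. -/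
theorem tile_line (F : Finset ℤ) (A : Set ℤ) (hA : ∀ g : ℤ, ∃! a : ℤ, a ∈ A ∧ g - a ∈ F) :
    ∃ (A' : Set ℤ) (p : ℤ), 0 < p ∧ (∀ g : ℤ, ∃! a : ℤ, a ∈ A' ∧ g - a ∈ F) ∧
      ∀ a, a ∈ A' ↔ a + p ∈ A' := by
  obtain ⟨A', p, hp, htile, hper, -⟩ :=
    cut_and_paste (AddMonoidHom.id ℤ) (1 : ℤ) rfl F A hA ⊥
      (fun k hk => by
        rw [AddSubgroup.mem_bot] at hk
        rw [hk]; rfl)
      {0}
      (fun x hx => ⟨0, Finset.mem_singleton_self 0, by
        have : x = 0 := hx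
        rw [this, AddSubgroup.mem_bot]; simp⟩)
      (fun k hk a => by
        rw [AddSubgroup.mem_bot] at hk
        rw [hk, add_zero])
  refine ⟨A', p, hp, htile, fun a => ?_⟩
  have := hper a
  rwa [smul_eq_mul, mul_one] at this

/-- A finite product set `S 0 × ⋯ × S (d-1)` which tiles `ℤ^d` by translations admits a tiling
invariant under `N ℤ^d` for some `N > 0`. -/
theorem product_tiles (d : ℕ) (S : Fin d → Finset ℤ) (A : Set (Fin d → ℤ))
    (hA : ∀ g : Fin d → ℤ, ∃! a : Fin d → ℤ, a ∈ A ∧ g - a ∈ Fintype.piFinset S) :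
    ∃ (A' : Set (Fin d → ℤ)) (N : ℤ), 0 < N ∧
      (∀ g : Fin d → ℤ, ∃! a : Fin d → ℤ, a ∈ A' ∧ g - a ∈ Fintype.piFinset S) ∧
      ∀ a ∈ A', ∀ v : Fin d → ℤ, a + N • v ∈ A' := by
  classical
  -- each factor tiles the line
  have hline : ∀ i : Fin d, ∃ B : Set ℤ, ∀ z : ℤ, ∃! w : ℤ, w ∈ B ∧ z - w ∈ S i := by
    intro i
    refine ⟨{w | ∃ a ∈ A, ∃ f ∈ Fintype.piFinset S, a i = w ∧ ∀ j, j ≠ i → a j + f j = 0}, ?_⟩
    intro z
    obtain ⟨a, ⟨haA, haF⟩, -⟩ := hA (Pi.single i z)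
    have hfi : z - a i ∈ S i := by
      have := Fintype.mem_piFinset.1 haF i
      simpa using this
    refine ⟨a i, ⟨⟨a, haA, Pi.single i z - a, haF, rfl, ?_⟩, hfi⟩, ?_⟩
    · intro j hj
      simp [Pi.single_eq_of_ne hj]
    · rintro w ⟨⟨a1, ha1A, f1, hf1, ha1w, hzero⟩, hw⟩
      have hf' : Pi.single i z - a1 ∈ Fintype.piFinset S := by
        rw [Fintype.mem_piFinset]
        intro j
        by_cases hj : j = i
        · subst hj
          simp only [Pi.sub_apply, Pi.single_eq_same]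
          rw [ha1w]; exact hw
        · have h0 := hzero j hj
          have : (Pi.single i z - a1 : Fin d → ℤ) j = f1 j := by
            simp only [Pi.sub_apply, Pi.single_eq_of_ne hj]
            linarith
          rw [this]
          exact Fintype.mem_piFinset.1 hf1 j
      have huniq := (hA (Pi.single i z)).unique ⟨ha1A, hf'⟩ ⟨haA, haF⟩
      rw [← ha1w, huniq]
  choose B hB using hline
  have hper : ∀ i : Fin d, ∃ (B' : Set ℤ) (p : ℤ), 0 < p ∧
      (∀ g : ℤ, ∃! a : ℤ, a ∈ B' ∧ g - a ∈ S i) ∧ ∀ a, a ∈ B' ↔ a + p ∈ B' :=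
    fun i => tile_line (S i) (B i) (hB i)
  choose B' p hp hB' hBp using hper
  refine ⟨{x | ∀ i, x i ∈ B' i}, ∏ i, p i, Finset.prod_pos (fun i _ => hp i), ?_, ?_⟩
  · intro g
    have hex : ∀ i : Fin d, ∃ w : ℤ, (w ∈ B' i ∧ g i - w ∈ S i) ∧
        ∀ y : ℤ, y ∈ B' i ∧ g i - y ∈ S i → y = w := fun i => hB' i (g i)
    choose w hw hwu using hex
    refine ⟨w, ⟨fun i => (hw i).1, ?_⟩, ?_⟩
    · rw [Fintype.mem_piFinset]
      intro i
      exact (hw i).2
    · rintro y ⟨hy1, hy2⟩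
      funext i
      exact hwu i (y i) ⟨hy1 i, by simpa using Fintype.mem_piFinset.1 hy2 i⟩
  · intro a ha v i
    have hdvd : p i ∣ ∏ i, p i := Finset.dvd_prod_of_mem p (Finset.mem_univ i)
    obtain ⟨c, hc⟩ := hdvd
    have h1 := (mem_add_mul_iff (B' i) (p i) (hBp i) (c * v i) (a i)).1 (ha i)
    have : (a + (∏ i, p i) • v) i = a i + c * v i * p i := by
      simp only [Pi.add_apply, Pi.smul_apply, smul_eq_mul]
      rw [hc]; ring
    rw [this]
    exact h1

/-- Abstract form: if a finite tile `F` of an abelian group `G` has a tiling invariant under a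
subgroup `K` of finite index in the kernel of a surjective homomorphism `φ : G → ℤ`, then `F`
has a tiling invariant under a subgroup of finite index in `G`. -/
theorem codim_one_periodic {G : Type*} [AddCommGroup G] (φ : G →+ ℤ)
    (hφ : Function.Surjective φ) (F : Finset G) (A : Set G)
    (hA : ∀ g : G, ∃! a : G, a ∈ A ∧ g - a ∈ F)
    (K : AddSubgroup G) (hK : K ≤ φ.ker) (hfin : (K.addSubgroupOf φ.ker).FiniteIndex)
    (hAK : ∀ k ∈ K, ∀ a ∈ A, a + k ∈ A) :
    ∃ (A' : Set G) (Λ : AddSubgroup G), Λ.FiniteIndex ∧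
      (∀ g : G, ∃! a : G, a ∈ A' ∧ g - a ∈ F) ∧ ∀ l ∈ Λ, ∀ a ∈ A', a + l ∈ A' := by
  classical
  obtain ⟨t, ht⟩ := hφ 1
  have hAK' : ∀ k ∈ K, ∀ a, a ∈ A ↔ a + k ∈ A := by
    intro k hk a
    refine ⟨fun h => hAK k hk a h, fun h => ?_⟩
    have := hAK (-k) (K.neg_mem hk) (a + k) h
    rwa [add_neg_cancel_right] at this
  have hK0 : ∀ k ∈ K, φ k = 0 := fun k hk => (AddMonoidHom.mem_ker).1 (hK hk)
  -- coset representatives of `K` in `ker φ`
  have : Finite (↥φ.ker ⧸ K.addSubgroupOf φ.ker) := AddSubgroup.finite_quotient_of_finiteIndex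
  let _ : Fintype (↥φ.ker ⧸ K.addSubgroupOf φ.ker) := Fintype.ofFinite _
  let T : Finset G := Finset.univ.image
    (fun q : ↥φ.ker ⧸ K.addSubgroupOf φ.ker => ((Quotient.out q : ↥φ.ker) : G))
  have hT : ∀ x, φ x = 0 → ∃ τ ∈ T, x - τ ∈ K := by
    intro x hx
    let x' : ↥φ.ker := ⟨x, (AddMonoidHom.mem_ker).2 hx⟩
    refine ⟨((Quotient.out (QuotientAddGroup.mk x' : ↥φ.ker ⧸ K.addSubgroupOf φ.ker) : ↥φ.ker) : G),
      Finset.mem_image.2 ⟨_, Finset.mem_univ _, rfl⟩, ?_⟩
    obtain ⟨h, hh⟩ := QuotientAddGroup.mk_out_eq_add (K.addSubgroupOf φ.ker) x'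
    have hhK : ((h : ↥φ.ker) : G) ∈ K := AddSubgroup.mem_addSubgroupOf.1 h.2
    have : x - ((Quotient.out (QuotientAddGroup.mk x' : ↥φ.ker ⧸ K.addSubgroupOf φ.ker) : ↥φ.ker) : G)
        = -((h : ↥φ.ker) : G) := by
      rw [hh]
      simp [x']
    rw [this]
    exact K.neg_mem hhK
  obtain ⟨A', p, hp, htile, hper, hKinv⟩ := cut_and_paste φ t ht F A hA K hK0 T hT hAK'
  have hperm : ∀ (m : ℤ) (a : G), a ∈ A' ↔ a + m • (p • t) ∈ A' := by
    intro m
    induction m using Int.induction_on with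
    | zero => intro a; simp
    | succ k ih =>
      intro a
      rw [ih a, hper (a + (k : ℤ) • (p • t))]
      have : a + (k : ℤ) • (p • t) + p • t = a + ((k : ℤ) + 1) • (p • t) := by
        rw [add_smul, one_smul]; abel
      rw [this]
    | pred k ih =>
      intro a
      rw [ih a, hper (a + (-(k : ℤ) - 1) • (p • t))]
      have : a + (-(k : ℤ) - 1) • (p • t) + p • t = a + (-(k : ℤ)) • (p • t) := by
        rw [sub_smul, one_smul]; abel
      rw [this]
  refine ⟨A', K ⊔ AddSubgroup.zmultiples (p • t), ?_, htile, ?_⟩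
  · -- finite index
    have hsurj : Function.Surjective
        (fun q : (Finset.range p.toNat ×ˢ T : Finset (ℕ × G)) =>
          (QuotientAddGroup.mk ((((q : ℕ × G).1 : ℕ) : ℤ) • t + (q : ℕ × G).2) :
            G ⧸ (K ⊔ AddSubgroup.zmultiples (p • t)))) := by
      intro y
      induction y using QuotientAddGroup.induction_on with
      | H x =>
        have hm0 := Int.emod_nonneg (φ x) hp.ne'
        have hm1 := Int.emod_lt_of_pos (φ x) hp
        have hz : φ (x - (φ x) • t) = 0 := by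
          rw [map_sub, map_zsmul, ht]; simp
        obtain ⟨τ, hτ, hκ⟩ := hT _ hz
        have hmem : ((φ x % p).toNat, τ) ∈ (Finset.range p.toNat ×ˢ T : Finset (ℕ × G)) := by
          refine Finset.mem_product.2 ⟨Finset.mem_range.2 ?_, hτ⟩
          omega
        refine ⟨⟨_, hmem⟩, ?_⟩
        show (QuotientAddGroup.mk ((((φ x % p).toNat : ℕ) : ℤ) • t + τ) :
            G ⧸ (K ⊔ AddSubgroup.zmultiples (p • t))) = QuotientAddGroup.mk x
        rw [QuotientAddGroup.eq, Int.toNat_of_nonneg hm0]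
        have hdecomp : -((φ x % p) • t + τ) + x
            = (x - (φ x) • t - τ) + (φ x / p) • (p • t) := by
          have h1 : (φ x) • t = (φ x % p) • t + (φ x / p) • (p • t) := by
            rw [smul_smul, ← add_smul, mul_comm, Int.emod_add_mul_ediv]
          rw [h1]; abel
        rw [hdecomp]
        exact AddSubgroup.mem_sup.2 ⟨_, hκ, _,
          AddSubgroup.mem_zmultiples_iff.2 ⟨φ x / p, rfl⟩, rfl⟩
    have : Finite (G ⧸ (K ⊔ AddSubgroup.zmultiples (p • t))) := Finite.of_surjective _ hsurj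
    exact AddSubgroup.finiteIndex_of_finite_quotient
  · intro l hl a ha
    obtain ⟨k, hk, z, hz, rfl⟩ := AddSubgroup.mem_sup.1 hl
    obtain ⟨m, rfl⟩ := AddSubgroup.mem_zmultiples_iff.1 hz
    have h1 := (hKinv k hk a).1 ha
    have h2 := (hperm m (a + k)).1 h1
    rwa [add_assoc] at h2

end Vale.Agent.H12
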